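import Mathlib
import Vale.Agent.P194.Defs
import Vale.Agent.P194.PGroup

/-!
# P194: group algebras of extensions with residually finite-`p` kernel
-/

namespace Vale.Agent.Results.P194.ResidualKernel

open Vale.Agent.P194

universe u v

/-- (1) If the powers of the augmentation ideal of `K[A]` intersect in `0`, then stable
(direct) finiteness passes from `K[G/A]` to `K[G]`. (2) This applies in characteristic `p` to
every normal subgroup which is residually a finite `p`-group; in particular `K[G]` is stably
finite when moreover `G/A` is residually finite. -/
theorem result :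
    (∀ (K : Type u) [Field K] (G : Type v) [Group G] (A : Subgroup G) [A.Normal],
      AugSeparated K A →
      (StablyFinite K (G ⧸ A) → StablyFinite K G) ∧
      (DirectlyFinite K (G ⧸ A) → DirectlyFinite K G)) ∧
    (∀ (p : ℕ) [Fact p.Prime] (K : Type u) [Field K] [CharP K p] (G : Type v) [Group G]
      (A : Subgroup G) [A.Normal], ResiduallyFiniteP p A →
      (StablyFinite K (G ⧸ A) → StablyFinite K G) ∧
      (DirectlyFinite K (G ⧸ A) → DirectlyFinite K G) ∧
      (ResiduallyFinite (G ⧸ A) → StablyFinite K G)) := by
  refine ⟨?_, ?_⟩
  · intro K _ G _ A _ hA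
    exact ⟨fun h n => mat_aux A hA (h n), directly A hA⟩
  · intro p _ K _ _ G _ A _ hA
    have h := residual (K := K) p hA
    refine ⟨fun h' n => mat_aux A h (h' n), directly A h, fun hQ n => mat_aux A h ?_⟩
    intro a b hab
    exact ((resfin_stably (K := K) hQ).isDedekindFiniteMonoid n).mul_eq_one_symm hab

end Vale.Agent.Results.P194.ResidualKernel
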